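import Crest.Statements.S0170
import Crest.Agent.S0170.Realize
import Crest.Agent.S0170.PlanExists

set_option autoImplicit false
open scoped ContDiff
open Crest.AnalysisR.BoxFlow
open Crest Crest.AnalysisR

namespace Crest.Agent.S0170

/-- Finitely many pairwise disjoint rational boxes in 3-space are carried onto disjoint target boxes, each a translated determinant-one positive diagonal rescaling of its source, by the time-one flow of a smooth, compactly supported, effective, divergence-free velocity field active only in [1/4,3/4]. The flow equals the prescribed affine map on a neighbourhood of each source box. Effective: computably approximable mixed derivatives at rational points and computable global derivative bounds. -/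
theorem result
    (n : ℕ) (a b h k : Fin n → Fin 3 → ℚ)
    (hh : ∀ i j, 0 < h i j) (hk : ∀ i j, 0 < k i j)
    (ha : Pairwise fun i i' => Disjoint (box (a i) (h i)) (box (a i') (h i')))
    (hb : Pairwise fun i i' => Disjoint (box (b i) (k i)) (box (b i') (k i')))
    (hvol : ∀ i, ∏ j : Fin 3, k i j / h i j = 1) :
    ∃ (U : Field) (Φ : ℝ → (Fin 3 → ℝ) → (Fin 3 → ℝ)),
      ContDiff ℝ ∞ U ∧ HasCompactSupport U ∧ Effective U ∧
      (∀ p : ℝ × (Fin 3 → ℝ), p.1 ∉ Set.Icc (1 / 4 : ℝ) (3 / 4) → U p = 0) ∧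
      (∀ p : ℝ × (Fin 3 → ℝ), spaceDiv U p = 0) ∧ IsFlow U Φ ∧
      ∀ i : Fin n, ∃ O : Set (Fin 3 → ℝ), IsOpen O ∧ box (a i) (h i) ⊆ O ∧
        ∀ x ∈ O, Φ 1 x = fun j => (b i j : ℝ) + ((k i j / h i j : ℚ) : ℝ) * (x j - (a i j : ℝ)) := by
  rcases Nat.eq_zero_or_pos n with rfl | hn
  · -- no boxes: `Plan 0` is empty, so realize an arbitrary valid one-box plan instead
    obtain ⟨p, hv⟩ := exists_valid_plan_one
    obtain ⟨U, Φ, h1, h2, h3, h4, h5, h6, -⟩ := p.realize hv
    exact ⟨U, Φ, h1, h2, h3, h4, h5, h6, fun i => i.elim0⟩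
  obtain ⟨p, hv, h0, hM⟩ := exists_plan n hn a b h k hh hk ha hb hvol
  obtain ⟨U, Φ, h1, h2, h3, h4, h5, h6, h7⟩ := p.realize hv
  refine ⟨U, Φ, h1, h2, h3, h4, h5, h6, fun i => ⟨(p.pos 0 i).obox p.ε, ?_, ?_, ?_⟩⟩
  · have e : (p.pos 0 i).obox p.ε = ⋂ k : Fin 3,
        {x : Fin 3 → ℝ | |x k - ((p.pos 0 i).c k : ℝ)| < (1 + (p.ε : ℝ)) * ((p.pos 0 i).w k : ℝ)} := by
      ext x
      simp [Pos.obox]
    rw [e]
    refine isOpen_iInter_of_finite fun k => ?_
    exact isOpen_lt (by fun_prop) continuous_const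
  · intro x hx k
    have hxk : |x k - (a i k : ℝ)| ≤ (h i k : ℝ) := hx k
    rw [h0 i]
    have hpos : (0 : ℝ) < (h i k : ℝ) := by exact_mod_cast hh i k
    have hε : (0 : ℝ) < (p.ε : ℝ) := by exact_mod_cast hv.εpos
    show |x k - (a i k : ℝ)| < (1 + (p.ε : ℝ)) * (h i k : ℝ)
    nlinarith
  · intro x hx
    have := h7 i x hx
    rw [h0 i, hM i] at this
    exact this

end Crest.Agent.S0170
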