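import Crest.Statements.S0359
-- (no helper modules: all auxiliary lemmas are in this file)

set_option autoImplicit false
open MeasureTheory
open scoped ENNReal
open Crest Crest.GeometryTopology

namespace Crest.Agent.S0359


/-- strict superadditivity of `x ↦ x ^ q` for `q > 1`. -/
lemma add_rpow_lt {q x y : ℝ} (hq : 1 < q) (hx : 0 < x) (hy : 0 < y) :
    x ^ q + y ^ q < (x + y) ^ q := by
  have hxy : 0 < x + y := by positivity
  have h1 : x ^ (q - 1) < (x + y) ^ (q - 1) :=
    Real.rpow_lt_rpow hx.le (by linarith) (by linarith)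
  have h2 : y ^ (q - 1) < (x + y) ^ (q - 1) :=
    Real.rpow_lt_rpow hy.le (by linarith) (by linarith)
  have e1 : x * x ^ (q - 1) = x ^ q := by rw [Real.rpow_sub_one hx.ne']; field_simp
  have e2 : y * y ^ (q - 1) = y ^ q := by rw [Real.rpow_sub_one hy.ne']; field_simp
  have e3 : (x + y) * (x + y) ^ (q - 1) = (x + y) ^ q := by
    rw [Real.rpow_sub_one hxy.ne']; field_simp
  nlinarith [mul_lt_mul_of_pos_left h1 hx, mul_lt_mul_of_pos_left h2 hy]

/-- strict subadditivity of `x ↦ x ^ q` for `0 < q < 1`. -/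
lemma rpow_add_lt {q x y : ℝ} (hq1 : q < 1) (hx : 0 < x) (hy : 0 < y) :
    (x + y) ^ q < x ^ q + y ^ q := by
  have hxy : 0 < x + y := by positivity
  have h1 : (x + y) ^ (q - 1) < x ^ (q - 1) :=
    Real.rpow_lt_rpow_of_neg hx (by linarith) (by linarith)
  have h2 : (x + y) ^ (q - 1) < y ^ (q - 1) :=
    Real.rpow_lt_rpow_of_neg hy (by linarith) (by linarith)
  have e1 : x * x ^ (q - 1) = x ^ q := by rw [Real.rpow_sub_one hx.ne']; field_simp
  have e2 : y * y ^ (q - 1) = y ^ q := by rw [Real.rpow_sub_one hy.ne']; field_simp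
  have e3 : (x + y) * (x + y) ^ (q - 1) = (x + y) ^ q := by
    rw [Real.rpow_sub_one hxy.ne']; field_simp
  nlinarith [mul_lt_mul_of_pos_left h1 hx, mul_lt_mul_of_pos_left h2 hy]

lemma abs_rpow_eq_sq_rpow (x P : ℝ) : |x| ^ P = (x ^ 2) ^ (P / 2) := by
  rw [← sq_abs, ← Real.rpow_natCast, ← Real.rpow_mul (abs_nonneg x)]
  congr 1
  push_cast
  ring

/-- scalar Clarkson inequality for `P > 2`, with its equality case. -/
lemma clarkson_gt {P : ℝ} (hP : 2 < P) (a b : ℝ) :
    2 * (|a| ^ P + |b| ^ P) ≤ |a + b| ^ P + |a - b| ^ P ∧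
    (2 * (|a| ^ P + |b| ^ P) = |a + b| ^ P + |a - b| ^ P → a * b = 0) := by
  have hq : 1 < P / 2 := by linarith
  rw [abs_rpow_eq_sq_rpow a, abs_rpow_eq_sq_rpow b, abs_rpow_eq_sq_rpow (a + b),
    abs_rpow_eq_sq_rpow (a - b)]
  set q := P / 2 with hqdef
  have hA : 0 ≤ a ^ 2 := sq_nonneg a
  have hB : 0 ≤ b ^ 2 := sq_nonneg b
  have hS : 0 ≤ (a + b) ^ 2 := sq_nonneg _
  have hT : 0 ≤ (a - b) ^ 2 := sq_nonneg _
  have hmid : (1 / 2 : ℝ) • (a + b) ^ 2 + (1 / 2 : ℝ) • (a - b) ^ 2 = a ^ 2 + b ^ 2 := by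
    simp only [smul_eq_mul]; ring
  have hconv := (convexOn_rpow hq.le).2 (Set.mem_Ici.2 hS) (Set.mem_Ici.2 hT)
    (by norm_num : (0 : ℝ) ≤ 1 / 2) (by norm_num : (0 : ℝ) ≤ 1 / 2) (by norm_num)
  rw [hmid] at hconv
  simp only [smul_eq_mul] at hconv
  have hsup := Real.add_rpow_le_rpow_add hA hB hq.le
  refine ⟨by linarith, fun heq => ?_⟩
  by_contra hab
  have ha : a ≠ 0 := fun h => hab (by simp [h])
  have hb : b ≠ 0 := fun h => hab (by simp [h])
  have := add_rpow_lt hq (by positivity : 0 < a ^ 2) (by positivity : 0 < b ^ 2)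
  linarith

/-- scalar Clarkson inequality for `0 < P < 2`, with its equality case. -/
lemma clarkson_lt {P : ℝ} (hP0 : 0 < P) (hP : P < 2) (a b : ℝ) :
    |a + b| ^ P + |a - b| ^ P ≤ 2 * (|a| ^ P + |b| ^ P) ∧
    (|a + b| ^ P + |a - b| ^ P = 2 * (|a| ^ P + |b| ^ P) → a * b = 0) := by
  have hq0 : 0 < P / 2 := by linarith
  have hq1 : P / 2 < 1 := by linarith
  rw [abs_rpow_eq_sq_rpow a, abs_rpow_eq_sq_rpow b, abs_rpow_eq_sq_rpow (a + b),
    abs_rpow_eq_sq_rpow (a - b)]
  set q := P / 2 with hqdef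
  have hA : 0 ≤ a ^ 2 := sq_nonneg a
  have hB : 0 ≤ b ^ 2 := sq_nonneg b
  have hS : 0 ≤ (a + b) ^ 2 := sq_nonneg _
  have hT : 0 ≤ (a - b) ^ 2 := sq_nonneg _
  have hmid : (1 / 2 : ℝ) • (a + b) ^ 2 + (1 / 2 : ℝ) • (a - b) ^ 2 = a ^ 2 + b ^ 2 := by
    simp only [smul_eq_mul]; ring
  have hconc := (Real.concaveOn_rpow hq0.le hq1.le).2 (Set.mem_Ici.2 hS) (Set.mem_Ici.2 hT)
    (by norm_num : (0 : ℝ) ≤ 1 / 2) (by norm_num : (0 : ℝ) ≤ 1 / 2) (by norm_num)
  rw [hmid] at hconc
  simp only [smul_eq_mul] at hconc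
  have hsub := Real.rpow_add_le_add_rpow hA hB hq0.le hq1.le
  refine ⟨by linarith, fun heq => ?_⟩
  by_contra hab
  have ha : a ≠ 0 := fun h => hab (by simp [h])
  have hb : b ≠ 0 := fun h => hab (by simp [h])
  have := rpow_add_lt hq1 (by positivity : 0 < a ^ 2) (by positivity : 0 < b ^ 2)
  linarith

/-- If `a * b = 0` then the Clarkson defect vanishes (any `P ≠ 0`). -/
lemma clarkson_eq_of_mul_eq_zero {P : ℝ} (hP0 : P ≠ 0) {a b : ℝ} (h : a * b = 0) :
    |a + b| ^ P + |a - b| ^ P = 2 * (|a| ^ P + |b| ^ P) := by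
  rcases mul_eq_zero.1 h with h | h
  · subst h; simp [Real.zero_rpow hP0]; ring
  · subst h; simp [Real.zero_rpow hP0]; ring

/-- strict convexity of `t ↦ |t| ^ P`, `P > 1`, in midpoint form with equality case. -/
lemma abs_add_rpow_le {P : ℝ} (hP : 1 < P) (x y : ℝ) :
    |x + y| ^ P ≤ 2 ^ (P - 1) * (|x| ^ P + |y| ^ P) ∧
    (|x + y| ^ P = 2 ^ (P - 1) * (|x| ^ P + |y| ^ P) → x = y) := by
  have hP0 : 0 < P := by linarith
  have h2 : (2 : ℝ) ^ P = 2 * 2 ^ (P - 1) := by
    rw [Real.rpow_sub_one (by norm_num)]; ring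
  have habs : |x + y| ≤ |x| + |y| := abs_add_le x y
  have hx : 0 ≤ |x| := abs_nonneg x
  have hy : 0 ≤ |y| := abs_nonneg y
  have hmono : |x + y| ^ P ≤ (|x| + |y|) ^ P :=
    Real.rpow_le_rpow (abs_nonneg _) habs hP0.le
  have hsplit : (|x| + |y|) ^ P = 2 ^ P * ((1 / 2 : ℝ) • |x| + (1 / 2 : ℝ) • |y|) ^ P := by
    rw [← Real.mul_rpow (by norm_num) (by positivity)]
    congr 1
    simp only [smul_eq_mul]; ring
  have hconv := (convexOn_rpow hP.le).2 (Set.mem_Ici.2 hx) (Set.mem_Ici.2 hy)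
    (by norm_num : (0 : ℝ) ≤ 1 / 2) (by norm_num : (0 : ℝ) ≤ 1 / 2) (by norm_num)
  simp only [smul_eq_mul] at hconv hsplit
  have h2pos : (0 : ℝ) < 2 ^ (P - 1) := by positivity
  have hle : (|x| + |y|) ^ P ≤ 2 ^ (P - 1) * (|x| ^ P + |y| ^ P) := by
    rw [hsplit, h2]
    nlinarith [mul_le_mul_of_nonneg_left hconv h2pos.le]
  refine ⟨hmono.trans hle, fun heq => ?_⟩
  -- equality case
  have heq1 : (|x| + |y|) ^ P = 2 ^ (P - 1) * (|x| ^ P + |y| ^ P) := le_antisymm hle (heq ▸ hmono)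
  have habs_eq : |x| = |y| := by
    by_contra hne
    have hstrict := (strictConvexOn_rpow hP).2 (Set.mem_Ici.2 hx) (Set.mem_Ici.2 hy) hne
      (by norm_num : (0 : ℝ) < 1 / 2) (by norm_num : (0 : ℝ) < 1 / 2) (by norm_num)
    simp only [smul_eq_mul] at hstrict
    rw [hsplit, h2] at heq1
    nlinarith [mul_lt_mul_of_pos_left hstrict h2pos]
  rcases abs_eq_abs.1 habs_eq with h | h
  · exact h
  · -- x = -y: then |x+y| = 0
    subst h
    simp only [neg_add_cancel, abs_zero, abs_neg, Real.zero_rpow hP0.ne'] at heq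
    have hy0 : |y| ^ P = 0 := by
      have : 0 ≤ |y| ^ P := by positivity
      nlinarith
    have : |y| = 0 := by
      by_contra hne
      have : 0 < |y| ^ P := Real.rpow_pos_of_pos (lt_of_le_of_ne hy (Ne.symm hne)) P
      linarith
    have : y = 0 := abs_eq_zero.1 this
    simp [this]


section PiLpLemmas

variable {ι : Type*} [Fintype ι] (p : ℝ≥0∞) [Fact (1 ≤ p)]

lemma norm_rpow_eq (hP : 0 < p.toReal) (f : PiLp p (fun _ : ι => ℝ)) :
    ‖f‖ ^ p.toReal = ∑ i, |f i| ^ p.toReal := by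
  rw [PiLp.norm_eq_sum hP, ← Real.rpow_mul (Finset.sum_nonneg fun i _ => by positivity)]
  simp [hP.ne', Real.norm_eq_abs]

/-- Clarkson equality holds exactly for vectors with disjoint supports (`p ≠ 2`). -/
lemma clarkson_iff (hP1 : 1 < p.toReal) (hP2 : p.toReal ≠ 2) (u v : PiLp p (fun _ : ι => ℝ)) :
    ‖u + v‖ ^ p.toReal + ‖u - v‖ ^ p.toReal = 2 * (‖u‖ ^ p.toReal + ‖v‖ ^ p.toReal) ↔
      ∀ c, u c * v c = 0 := by
  have hP0 : 0 < p.toReal := by linarith
  simp only [norm_rpow_eq p hP0, PiLp.add_apply, PiLp.sub_apply]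
  rw [← Finset.sum_add_distrib, ← Finset.sum_add_distrib, Finset.mul_sum]
  constructor
  · intro h c
    rcases lt_or_gt_of_ne hP2 with h2 | h2
    · have hle : ∀ i ∈ Finset.univ, |u i + v i| ^ p.toReal + |u i - v i| ^ p.toReal ≤
          2 * (|u i| ^ p.toReal + |v i| ^ p.toReal) :=
        fun i _ => (clarkson_lt hP0 h2 (u i) (v i)).1
      have := (Finset.sum_eq_sum_iff_of_le hle).1 h c (Finset.mem_univ c)
      exact (clarkson_lt hP0 h2 (u c) (v c)).2 this
    · have hle : ∀ i ∈ Finset.univ, 2 * (|u i| ^ p.toReal + |v i| ^ p.toReal) ≤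
          |u i + v i| ^ p.toReal + |u i - v i| ^ p.toReal :=
        fun i _ => (clarkson_gt h2 (u i) (v i)).1
      have := (Finset.sum_eq_sum_iff_of_le hle).1 h.symm c (Finset.mem_univ c)
      exact (clarkson_gt h2 (u c) (v c)).2 this
  · intro h
    exact Finset.sum_congr rfl fun c _ => clarkson_eq_of_mul_eq_zero hP0.ne' (h c)

/-- Strict convexity of `ℓ^p`, in the form needed: a point at distance `‖a‖ + ‖b‖` from `a`
with the same norm is `-a`. -/
lemma eq_neg_of_norm (hP1 : 1 < p.toReal) (a b : PiLp p (fun _ : ι => ℝ))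
    (hab : ‖a‖ = ‖b‖) (h : ‖a - b‖ = ‖a‖ + ‖b‖) : b = -a := by
  have hP0 : 0 < p.toReal := by linarith
  have e1 : ‖a - b‖ ^ p.toReal = ∑ c, |a c + (-b) c| ^ p.toReal := by
    rw [norm_rpow_eq p hP0]
    refine Finset.sum_congr rfl fun c _ => ?_
    simp [sub_eq_add_neg]
  have e2 : ‖a‖ ^ p.toReal = ∑ c, |a c| ^ p.toReal := norm_rpow_eq p hP0 a
  have e3 : ‖b‖ ^ p.toReal = ∑ c, |(-b) c| ^ p.toReal := by
    rw [norm_rpow_eq p hP0]
    refine Finset.sum_congr rfl fun c _ => ?_
    simp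
  have hsum : ∑ c, |a c + (-b) c| ^ p.toReal =
      ∑ c, 2 ^ (p.toReal - 1) * (|a c| ^ p.toReal + |(-b) c| ^ p.toReal) := by
    rw [← Finset.mul_sum, Finset.sum_add_distrib, ← e1, ← e2, ← e3, h, ← hab, ← two_mul,
      Real.mul_rpow (by norm_num) (norm_nonneg a), Real.rpow_sub_one (by norm_num)]
    ring
  have hterm := (Finset.sum_eq_sum_iff_of_le
    (fun c _ => (abs_add_rpow_le hP1 (a c) ((-b) c)).1)).1 hsum
  have hab' : a = -b := by
    ext c
    exact (abs_add_rpow_le hP1 (a c) ((-b) c)).2 (hterm c (Finset.mem_univ c))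
  rw [hab', neg_neg]

end PiLpLemmas

section Embedding

variable {ι : Type} [Fintype ι] [MeasurableSpace ι] [DiscreteMeasurableSpace ι]
  (p : ℝ≥0∞) [Fact (1 ≤ p)]

/-- The canonical map from `ℓ^p(ι)` to `L^p` of the counting measure on `ι`. -/
noncomputable def toLpCount (u : PiLp p (fun _ : ι => ℝ)) : Lp ℝ p (Measure.count : Measure ι) :=
  (MemLp.of_discrete : MemLp (fun i => u i) p (Measure.count : Measure ι)).toLp _

lemma norm_toLpCount_sub (hp0 : 0 < p.toReal) (hptop : p ≠ ⊤) (u v : PiLp p (fun _ : ι => ℝ)) :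
    ‖toLpCount p u - toLpCount p v‖ = ‖u - v‖ := by
  have hp0' : p ≠ 0 := fun h => by simp [h] at hp0
  unfold toLpCount
  rw [← MemLp.toLp_sub, Lp.norm_toLp, eLpNorm_eq_lintegral_rpow_enorm_toReal hp0' hptop,
    lintegral_fintype, PiLp.norm_eq_sum hp0]
  simp only [Measure.count_singleton, mul_one, Pi.sub_apply, PiLp.sub_apply]
  rw [← ENNReal.toReal_rpow, ENNReal.toReal_sum (fun i _ => by simp)]
  congr 1
  refine Finset.sum_congr rfl fun i _ => ?_
  rw [← ENNReal.toReal_rpow, toReal_enorm]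

end Embedding



/-- Rigidity: a distance-preserving map between point sets of `ℓ^p` spaces fixing the origin
preserves disjointness of supports, provided the point set contains the negative of one of the
two vectors. -/
lemma rigidity {ι κ : Type*} [Fintype ι] [Fintype κ] (p : ℝ≥0∞) [Fact (1 ≤ p)]
    (hP1 : 1 < p.toReal) (hP2 : p.toReal ≠ 2)
    {I : Type*} (x : I → PiLp p (fun _ : ι => ℝ)) (g : I → PiLp p (fun _ : κ => ℝ))
    (hg : ∀ i j, ‖g i - g j‖ = ‖x i - x j‖)
    (i₀ : I) (hx0 : x i₀ = 0) (hg0 : g i₀ = 0)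
    (i j j' : I) (hj : x j' = - x j) :
    (∀ c, g i c * g j c = 0) ↔ (∀ c, x i c * x j c = 0) := by
  have hnorm : ∀ i, ‖g i‖ = ‖x i‖ := fun i => by
    have := hg i i₀
    rwa [hx0, hg0, sub_zero, sub_zero] at this
  have hneg : g j' = - g j := by
    apply eq_neg_of_norm p hP1
    · rw [hnorm, hnorm, hj, norm_neg]
    · rw [hg, hnorm, hnorm, hj, norm_neg, sub_neg_eq_add, ← two_smul ℝ (x j), norm_smul]
      simp; ring
  have h1 : ‖g i + g j‖ = ‖x i + x j‖ := by
    have := hg i j'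
    rwa [hneg, hj, sub_neg_eq_add, sub_neg_eq_add] at this
  rw [← clarkson_iff p hP1 hP2, ← clarkson_iff p hP1 hP2, h1, hg, hnorm, hnorm]

/-- Counting: `k` pairwise disjointly supported vectors and `k` further pairwise disjointly
supported vectors, each of the first meeting each of the second, need `k ^ 2` coordinates. -/
lemma card_bound {κ : Type*} [Fintype κ] (k : ℕ) (U V : Fin k → κ → ℝ)
    (hU : ∀ a a', a ≠ a' → ∀ c, U a c * U a' c = 0)
    (hV : ∀ b b', b ≠ b' → ∀ c, V b c * V b' c = 0)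
    (hUV : ∀ a b, ∃ c, U a c * V b c ≠ 0) :
    k ^ 2 ≤ Fintype.card κ := by
  choose f hf using hUV
  have hinj : Function.Injective (fun ab : Fin k × Fin k => f ab.1 ab.2) := by
    rintro ⟨a, b⟩ ⟨a', b'⟩ h
    simp only at h
    have h1 := hf a b
    have h2 := hf a' b'
    rw [← h] at h2
    have ha : a = a' := by
      by_contra hne
      have := hU a a' hne (f a b)
      rcases mul_eq_zero.1 this with h0 | h0
      · exact h1 (by rw [h0, zero_mul])
      · exact h2 (by rw [h0, zero_mul])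
    have hb : b = b' := by
      by_contra hne
      have := hV b b' hne (f a b)
      rcases mul_eq_zero.1 this with h0 | h0
      · exact h1 (by rw [h0, mul_zero])
      · exact h2 (by rw [h0, mul_zero])
    rw [ha, hb]
  have := Fintype.card_le_of_injective _ hinj
  simpa [sq] using this

/-- Fix an exponent 1 < p < ∞ with p ≠ 2 and n ≥ 9. If d is a dimension such that every n distinct points of any real L^p space can be mapped to the d-dimensional real ℓ^p space with all pairwise distances multiplied by one common factor s > 0 (an isometric embedding up to scaling), then ⌊(n − 1)/4⌋² ≤ d. -/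
theorem result
    (p : ℝ≥0∞) [Fact (1 ≤ p)] (hp1 : 1 < p) (hptop : p ≠ ⊤) (hp2 : p ≠ 2)
    (n : ℕ) (hn : 9 ≤ n) (d : ℕ)
    (hd : ∀ (α : Type) [MeasurableSpace α] (μ : Measure α) (x : Fin n → Lp ℝ p μ),
      Function.Injective x →
      ∃ (y : Fin n → PiLp p (fun _ : Fin d => ℝ)) (s : ℝ), 0 < s ∧
        ∀ i j, ‖y i - y j‖ = s * ‖x i - x j‖) :
    ((n - 1) / 4) ^ 2 ≤ d := by
  have hP1 : 1 < p.toReal := by
    have := (ENNReal.toReal_lt_toReal ENNReal.one_ne_top hptop).2 hp1
    simpa using this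
  have hP2 : p.toReal ≠ 2 := by
    intro h
    apply hp2
    rw [← ENNReal.ofReal_toReal hptop, h]
    simp
  have hP0 : 0 < p.toReal := by linarith
  obtain ⟨k, hk⟩ : ∃ k, k = (n - 1) / 4 := ⟨_, rfl⟩
  rw [← hk]
  have hk2 : 2 ≤ k := by omega
  have hkn : 4 * k + 1 ≤ n := by omega
  -- the source space `ℓ^p (Fin k × Fin k)`
  let X : Fin k → PiLp p (fun _ : Fin k × Fin k => ℝ) :=
    fun a => WithLp.toLp p (fun c => if c.1 = a then (1 : ℝ) else 0)
  let Y : Fin k → PiLp p (fun _ : Fin k × Fin k => ℝ) :=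
    fun b => WithLp.toLp p (fun c => if c.2 = b then (1 : ℝ) else 0)
  have hXc : ∀ a c, X a c = if c.1 = a then (1 : ℝ) else 0 := fun a c => rfl
  have hYc : ∀ b c, Y b c = if c.2 = b then (1 : ℝ) else 0 := fun b c => rfl
  -- the special finite set of points
  let S₀ : Finset (PiLp p (fun _ : Fin k × Fin k => ℝ)) :=
    insert 0 (((Finset.univ.image X ∪ Finset.univ.image (fun a => - X a)) ∪
      Finset.univ.image Y) ∪ Finset.univ.image (fun b => - Y b))
  have hS₀card : S₀.card ≤ n := by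
    have h1 : (Finset.univ.image X).card ≤ k := by
      simpa using Finset.card_image_le (s := Finset.univ) (f := X)
    have h2 : (Finset.univ.image (fun a => - X a)).card ≤ k := by
      simpa using Finset.card_image_le (s := Finset.univ) (f := fun a => - X a)
    have h3 : (Finset.univ.image Y).card ≤ k := by
      simpa using Finset.card_image_le (s := Finset.univ) (f := Y)
    have h4 : (Finset.univ.image (fun b => - Y b)).card ≤ k := by
      simpa using Finset.card_image_le (s := Finset.univ) (f := fun b => - Y b)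
    have h5 := Finset.card_insert_le (0 : PiLp p (fun _ : Fin k × Fin k => ℝ))
      (((Finset.univ.image X ∪ Finset.univ.image (fun a => - X a)) ∪
      Finset.univ.image Y) ∪ Finset.univ.image (fun b => - Y b))
    have h6 := Finset.card_union_le ((Finset.univ.image X ∪ Finset.univ.image (fun a => - X a)) ∪
      Finset.univ.image Y) (Finset.univ.image (fun b => - Y b))
    have h7 := Finset.card_union_le (Finset.univ.image X ∪ Finset.univ.image (fun a => - X a))
      (Finset.univ.image Y)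
    have h8 := Finset.card_union_le (Finset.univ.image X) (Finset.univ.image (fun a => - X a))
    show (insert 0 _ : Finset _).card ≤ n
    omega
  -- the space is infinite
  have hX0 : X ⟨0, by omega⟩ ≠ 0 := by
    intro h
    have := congrArg (fun v : PiLp p (fun _ : Fin k × Fin k => ℝ) => v (⟨0, by omega⟩, ⟨0, by omega⟩)) h
    simp [hXc] at this
  have : Infinite (PiLp p (fun _ : Fin k × Fin k => ℝ)) :=
    Infinite.of_injective (fun r : ℝ => r • X ⟨0, by omega⟩) (smul_left_injective ℝ hX0)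
  obtain ⟨P, hSP, hPcard⟩ := Infinite.exists_superset_card_eq S₀ n hS₀card
  let e : P ≃ Fin n := P.equivFinOfCardEq hPcard
  let x' : Fin n → PiLp p (fun _ : Fin k × Fin k => ℝ) := fun i => (e.symm i : _)
  have hx'inj : Function.Injective x' := fun i j h => e.symm.injective (Subtype.ext h)
  have hidx : ∀ v ∈ S₀, ∃ i, x' i = v := fun v hv => ⟨e ⟨v, hSP hv⟩, by simp [x']⟩
  -- apply the hypothesis
  let x : Fin n → Lp ℝ p (Measure.count : Measure (Fin k × Fin k)) := fun i => toLpCount p (x' i)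
  have hxinj : Function.Injective x := by
    intro i j h
    apply hx'inj
    have h0 : ‖x i - x j‖ = 0 := by rw [h, sub_self, norm_zero]
    rw [norm_toLpCount_sub p hP0 hptop] at h0
    exact sub_eq_zero.1 (norm_eq_zero.1 h0)
  obtain ⟨y, s, hs, hy⟩ := hd (Fin k × Fin k) Measure.count x hxinj
  obtain ⟨i₀, hi₀⟩ := hidx 0 (by simp [S₀])
  let g : Fin n → PiLp p (fun _ : Fin d => ℝ) := fun i => s⁻¹ • (y i - y i₀)
  have hg : ∀ i j, ‖g i - g j‖ = ‖x' i - x' j‖ := by
    intro i j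
    have : g i - g j = s⁻¹ • (y i - y j) := by
      simp only [g, ← smul_sub]; congr 1; abel
    rw [this, norm_smul, hy, norm_toLpCount_sub p hP0 hptop, Real.norm_eq_abs, abs_inv,
      abs_of_pos hs]
    field_simp
  have hg0 : g i₀ = 0 := by simp [g]
  -- indices of the special points
  have hiX : ∀ a, ∃ i, x' i = X a := fun a => hidx _ (by simp [S₀])
  have hiX' : ∀ a, ∃ i, x' i = - X a := fun a => hidx _ (by simp [S₀])
  have hiY : ∀ b, ∃ i, x' i = Y b := fun b => hidx _ (by simp [S₀])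
  have hiY' : ∀ b, ∃ i, x' i = - Y b := fun b => hidx _ (by simp [S₀])
  choose iX hiX using hiX
  choose iX' hiX' using hiX'
  choose iY hiY using hiY
  choose iY' hiY' using hiY'
  have key := card_bound (κ := Fin d) k (fun a => g (iX a)) (fun b => g (iY b)) ?_ ?_ ?_
  · simpa using key
  · intro a a' hne
    refine (rigidity p hP1 hP2 x' g hg i₀ hi₀ hg0 (iX a) (iX a') (iX' a') ?_).2 ?_
    · rw [hiX', hiX]
    · intro c
      rw [hiX, hiX, hXc, hXc]
      by_cases h1 : c.1 = a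
      · have : ¬ c.1 = a' := fun h2 => hne (h1.symm.trans h2)
        simp [this]
      · simp [h1]
  · intro b b' hne
    refine (rigidity p hP1 hP2 x' g hg i₀ hi₀ hg0 (iY b) (iY b') (iY' b') ?_).2 ?_
    · rw [hiY', hiY]
    · intro c
      rw [hiY, hiY, hYc, hYc]
      by_cases h1 : c.2 = b
      · have : ¬ c.2 = b' := fun h2 => hne (h1.symm.trans h2)
        simp [this]
      · simp [h1]
  · intro a b
    by_contra hcon
    push Not at hcon
    have := (rigidity p hP1 hP2 x' g hg i₀ hi₀ hg0 (iX a) (iY b) (iY' b) (by rw [hiY', hiY])).1 hcon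
      (a, b)
    rw [hiX, hiY, hXc, hYc] at this
    simp at this

end Crest.Agent.S0359
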